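import Vale.Agent.P106.R.E.Defs
import Vale.Agent.P122.H265.S7
import Vale.Agent.P127.U.FillC

/-!
# P106 / R / E7 : the step (S) of the regular systems, price `A` (helper11, after P122 / H265 / {S7, E7} of helper265)

* `s_coreA` : the abstract step (S) on the tree of helper518 for a general price.
* `nbox` : the box of widths `2^(j n) / 2^(2 i n)` around the ray of the plank itself.
* `e7_of` : `E4 A → E3 → (tree) → (sig) → E7 A C₀`.
-/

set_option autoImplicit false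

namespace Vale.Agent.P106.R.H11

open Filter Topology Finset Vale.Agent.P127 Vale.Agent.P127.Stk Vale.Agent.P127.U Vale.Agent.P127.U.Sys Vale.Agent.P106.R.C2
  Vale.Agent.P106.R.E Vale.Agent.P122.H518
open Vale.Agent.P106.W (Cbx)

/-! ### the abstract step -/

section core

variable {S : Sys} {β κ τ σ ς : Type*} {K : ℕ} {N : ℕ → S.RV β} {Y : ℕ → S.RV κ} {T : ℕ → S.RV τ}
  {sg : ℕ → S.RV σ} {H J th : ℕ → ℝ}

/-- **(S)**, abstract form, price `A` -/
theorem s_coreA {A : ℝ} (hA : 0 ≤ A) (h : Cts S K N Y T sg H J th) (hL : ∀ c, c < K → 2 * th c ≤ J c) {i j : ℕ}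
    (hij : i ≤ j) (hj2 : j ≤ 2 * i) (hj : j ≤ K)
    {sig : S.RV ς} (g1 : Sys.Fn sig (N i)) (g2 : S.hc sig (Sys.pr (T i) (N j)) = 0)
    (g3 : S.hc sig (Sys.pr (N 0) (Y (2 * i - j))) = 0) :
    S.h sig + (2 * (i : ℝ) + 2 * j) / K + (A + 1) * Cts.Dn S K N T i j ≤
      H i + 4 * (i : ℝ) / K + (A + 1) * (Cts.En K H J th j - Cts.En K H J th i) +
        ((∑ c ∈ range j, J c - ∑ c ∈ range i, J c) -
          (∑ c ∈ range i, J c - ∑ c ∈ range (2 * i - j), J c)) := by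
  have hi := hij.trans hj
  have tN := h.tre.tN i hi
  have tsig : Sys.Tame sig := tN.mono g1
  obtain ⟨a1, a2⟩ := Vale.Agent.P122.H265.hc_N_sig h hij hj (k := 2 * i - j) (by omega) g1 g2 g3
  have b1 := h.En_sub hij hj
  have b2 := h.Dn_nonneg hij hj
  have b3 := h.Cn_ge hij hj
  have b4 : 2 * ∑ k ∈ Ico i j, th k ≤ ∑ k ∈ Ico i j, J k := by
    rw [mul_sum]
    refine sum_le_sum fun c hc => hL c ?_
    have := (mem_Ico.1 hc).2
    omega
  have b5 := sum_range_add_sum_Ico J hij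
  have b6 : S.h (N i) = S.h sig + S.hc (N i) sig := by
    have c1 := Cts.h_pair_eq tN tsig
    have c2 : S.h (Sys.pr (N i) sig) = S.h (N i) := by
      unfold Sys.h
      refine hc_congr ?_ ?_ (frf _) (frf _)
      · exact ftr (fpr (frf _) g1) (ffst _ _)
      · exact ftr (ffst _ _) (ffst _ _)
    rw [c2] at c1
    linarith
  rw [h.hN i hi] at b6
  have b7 : S.hc (N i) (Sys.pr (T i) (N j)) = 2 * ((j : ℝ) - i) / K - Cts.Cn S K N T i j := by
    unfold Cts.Cn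
    ring
  have b8 : (2 * (i : ℝ) + 2 * j) / K = 4 * (i : ℝ) / K + 2 * ((j : ℝ) - i) / K := by ring
  have b9 : 0 ≤ A * (Cts.Cn S K N T i j - 2 * ∑ k ∈ Ico i j, th k) := mul_nonneg hA (by linarith)
  rw [b8, b1]
  nlinarith [b9]

end core

/-! ### the box around the ray of the plank itself -/

variable {K : ℕ} (F : Flg K)

/-- the box of widths `2^(j n) / 2^(2 i n)` around the ray of the plank of level `i` -/
noncomputable def nbox (i j : ℕ) : F.S.RV Cbx := fun k ω =>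
  ⟨0, 2 ^ (j * F.n k) / 2 ^ (2 * i * F.n k), 2 ^ (j * F.n k) / 2 ^ (2 * i * F.n k), 0, 0,
    py (F.n k) i (F.N i k ω), F.s k i (F.N i k ω).τ, pz (F.s k) (F.n k) i (F.N i k ω)⟩

theorem nbox_okb {i j : ℕ} (hj2 : j ≤ 2 * i) (k : ℕ) (ω : F.S.Ω k) :
    Okb (F.s k) (F.n k) i j (nbox F i j k ω) := by
  have h1 : (0:ℝ) < 2 ^ (j * F.n k) / 2 ^ (2 * i * F.n k) := by positivity
  have h2 : (2:ℝ) ^ (j * F.n k) / 2 ^ (2 * i * F.n k) ≤ 1 := by
    rw [div_le_one (by positivity)]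
    exact pow_le_pow_right₀ (by norm_num) (Nat.mul_le_mul_right _ hj2)
  refine ⟨le_rfl, le_rfl, h2, ?_, ?_, ?_, ?_⟩
  · show |(0:ℝ)| * _ ≤ 1 / 8
    rw [abs_zero, zero_mul]; norm_num
  · show |(0:ℝ)| * _ ≤ 1 / 8
    rw [abs_zero, zero_mul]; norm_num
  · show |(0:ℝ)| * _ ≤ _
    rw [abs_zero, zero_mul]; exact h1.le
  · show |(0:ℝ)| * _ ≤ _
    rw [abs_zero, zero_mul]; exact h1.le

theorem nbox_inP (i j k : ℕ) (ω : F.S.Ω k) :
    InP (F.s k) (F.n k) i (nbox F i j k ω) (F.N i k ω) := by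
  have h1 : (0:ℝ) ≤ 2 ^ (j * F.n k) / 2 ^ (2 * i * F.n k) := by positivity
  have hfn : fn 0 (0 : Fin 2 → ℝ) = 0 := by simp [fn]
  refine ⟨fun l => ?_, fun l => ?_, ?_, ?_, ?_⟩
  · show |py (F.n k) i (F.N i k ω) l - py (F.n k) i (F.N i k ω) l| ≤ _
    rw [sub_self, abs_zero]; exact h1
  · show |F.s k i (F.N i k ω).τ l - F.s k i (F.N i k ω).τ l| ≤ _
    rw [sub_self, abs_zero]; exact h1
  · show |pz (F.s k) (F.n k) i (F.N i k ω) + ∑ l, py (F.n k) i (F.N i k ω) l *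
      (F.s k i (F.N i k ω).τ l - F.s k i (F.N i k ω).τ l) - pz (F.s k) (F.n k) i (F.N i k ω)| ≤ _
    simp only [sub_self, mul_zero, sum_const_zero, add_zero, abs_zero]
    exact le_max_of_le_left (by positivity)
  · show |fn 0 (py (F.n k) i (F.N i k ω) - py (F.n k) i (F.N i k ω)) + 0 * _ - 0 * _| ≤ _
    rw [sub_self, hfn, zero_mul, zero_mul, add_zero, sub_zero, abs_zero]
    exact h1
  · show |fn 0 (F.s k i (F.N i k ω).τ - F.s k i (F.N i k ω).τ) + 0 * _ / 2 + 2 * 0 * _| ≤ _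
    rw [sub_self, hfn, zero_mul, zero_div, mul_zero, zero_mul, add_zero, add_zero, abs_zero]
    exact h1

theorem nbox_inW {i j : ℕ} (hj2 : j ≤ 2 * i) : F.InW (Ext.refl F.S) i j (nbox F i j) :=
  Eventually.of_forall fun k ω _ => ⟨nbox_okb F hj2 k ω, nbox_inP F i j k ω⟩

/-- volume of the box -/
theorem lv_nbox {i j : ℕ} (hij : i ≤ j) (hw : 2 * (j - i) ≤ F.h) (k : ℕ) (ω : F.S.Ω k) :
    F.lv i (nbox F i j) k ω = 2 * ((j : ℝ) - i) * F.n k := by
  show Real.logb 2 (bvol (F.s k) (F.n k) i (nbox F i j k ω)) = _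
  have hh : W.hh (F.n k) (F.s k).h i = 2 ^ (F.h * F.n k) / 2 ^ (2 * i * F.n k) := by
    unfold W.hh
    rw [F.hs k]
  have e0 : bvol (F.s k) (F.n k) i (nbox F i j k ω) =
      (2 ^ (j * F.n k) / 2 ^ (2 * i * F.n k)) * (2 ^ (j * F.n k) / 2 ^ (2 * i * F.n k)) /
        ((1 / 2 : ℝ) ^ (i * F.n k)) ^ 2 * max 1 ((2 ^ (j * F.n k) / 2 ^ (2 * i * F.n k)) ^ 2 /
          (2 ^ (F.h * F.n k) / 2 ^ (2 * i * F.n k))) := by
    unfold bvol Cbx.vol
    rw [hh]
    rfl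
  have e1 : ((2:ℝ) ^ (j * F.n k) / 2 ^ (2 * i * F.n k)) ^ 2 /
      (2 ^ (F.h * F.n k) / 2 ^ (2 * i * F.n k)) ≤ 1 := by
    rw [div_le_one (by positivity), div_pow, div_le_div_iff₀ (by positivity) (by positivity),
      ← pow_mul, ← pow_mul, ← pow_add, ← pow_add]
    refine pow_le_pow_right₀ (by norm_num) ?_
    have h1 : j * F.n k * 2 + 2 * i * F.n k = (2 * j + 2 * i) * F.n k := by ring
    have h2 : F.h * F.n k + 2 * i * F.n k * 2 = (F.h + 4 * i) * F.n k := by ring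
    rw [h1, h2]
    exact Nat.mul_le_mul_right _ (by omega)
  have e2 : ((2:ℝ) ^ (j * F.n k) / 2 ^ (2 * i * F.n k)) * (2 ^ (j * F.n k) / 2 ^ (2 * i * F.n k)) /
        ((1 / 2 : ℝ) ^ (i * F.n k)) ^ 2 = 2 ^ (2 * (j - i) * F.n k) := by
    rw [one_div, inv_pow, inv_pow, div_inv_eq_mul, ← pow_mul]
    rw [div_mul_div_comm, ← pow_add, ← pow_add, div_mul_eq_mul_div, ← pow_add,
      div_eq_iff (by positivity), ← pow_add]
    congr 1
    obtain ⟨d, rfl⟩ := Nat.exists_eq_add_of_le hij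
    rw [Nat.add_sub_cancel_left]
    ring
  rw [e0, e2, max_eq_left e1, mul_one, Real.logb_pow, Real.logb_self_eq_one (by norm_num), mul_one]
  push_cast [Nat.cast_sub hij]
  ring

/-- average size of the box -/
theorem av_lv_nbox {i j : ℕ} (hK : 1 ≤ K) (hij : i ≤ j) (hw : 2 * (j - i) ≤ F.h) :
    F.S.av (F.lv i (nbox F i j)) = 2 * ((j : ℝ) - i) / K := by
  have h1 : F.lv i (nbox F i j) = fun k _ => 2 * ((j : ℝ) - i) * F.n k := by
    funext k ω
    exact lv_nbox F hij hw k ω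
  rw [h1, Fi.av_const]
  rw [← ulim_const (2 * ((j : ℝ) - i) / K)]
  refine ulim_congr ?_
  filter_upwards [F.S.L_pos] with k hk
  rw [F.L_eq k] at hk ⊢
  have h2 : (0:ℝ) < (K : ℝ) := by exact_mod_cast hK
  have h3 : (0:ℝ) < (F.n k : ℝ) := by
    have h4 : 0 < K * F.n k := by exact_mod_cast hk
    exact_mod_cast Nat.pos_of_mul_pos_left h4
  push_cast
  field_simp

/-- **E7 = (S)** from **E4 = (K)** and **E3** -/
theorem e7_of {A C₀ : ℝ} (hA : 0 ≤ A) (hC : 0 ≤ C₀) (h4 : E4 A) (h3 : E3)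
    (hcts : ∀ {K : ℕ} (F : Flg K) (J θ H e : ℕ → ℝ) (W : ℕ → F.S.RV Cbx) (kk jj : ℕ → ℕ → ℕ), 1 ≤ K →
      RegA F J θ H e W kk jj → Cts F.S K F.N F.Y F.T F.sg H J θ)
    (hTN : ∀ {K : ℕ} (F : Flg K) {c d : ℕ}, c ≤ d → d ≤ 2 * c → d ≤ K → 2 * (d - c) ≤ F.h →
      F.S.hc (F.sig c d) (Sys.pr (F.T c) (F.N d)) = 0)
    (hxY : ∀ {K : ℕ} (F : Flg K) {c d : ℕ}, c ≤ d → d ≤ 2 * c → c ≤ K → 2 * (d - c) ≤ F.h →
      F.S.hc (F.sig c d) (Sys.pr F.x (F.Y (2 * c - d))) = 0) : E7 A C₀ := by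
  intro K F J θ H e W kk jj hK R i j hij hj2 hjK hw
  have hKr : (0:ℝ) ≤ (K : ℝ) := Nat.cast_nonneg _
  have hCK : 0 ≤ C₀ / K := div_nonneg hC hKr
  have c := hcts F J θ H e W kk jj hK R
  rcases Nat.eq_zero_or_pos i with h0 | h0
  · subst h0
    have hj0 : j = 0 := by omega
    subst hj0
    have := R.e0 0 (Nat.zero_le _)
    simp only [Nat.sub_zero, sub_self, mul_zero, add_zero]
    linarith
  · have hiK := hij.trans hjK
    have a1 := h4 F i j hK h0 hij hj2 hjK hw F.S (Ext.refl F.S) (nbox F i j) (nbox_inW F hj2)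
    have a2 : F.exc j ≤ e j := h3 F j (e j) hK hjK (R.e0 j hjK) (R.exU j hjK)
    rw [av_lv_nbox F hK hij hw] at a1
    have fsig : Sys.Fn (F.sig i j) (F.N i) := Eventually.of_forall fun k ω ω' _ _ e => by
      show F.sig i j k ω = F.sig i j k ω'
      unfold Flg.sig
      rw [e]
    have tsig : Tame (F.sig i j) := (c.tre.tN i hiK).mono fsig
    have a4 : 0 ≤ F.S.hc ((Ext.refl F.S).pull (F.sig i j))
        (Sys.pr (nbox F i j) ((Ext.refl F.S).pull (F.ball i))) :=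
      hc_nonneg tsig _
    have a5 := s_coreA hA c R.L hij hj2 hjK (sig := F.sig i j) fsig (hTN F hij hj2 hjK hw)
      (hxY F hij hj2 hiK hw)
    have a6 : F.S.hc (F.N j) (one (S := F.S)) = H j := c.hN j hjK
    have a7 : Cts.Dn F.S K F.N F.T i j = F.D i j := rfl
    have a8 : F.S.hc (F.sig i j) (one (S := F.S)) = F.S.h (F.sig i j) := rfl
    rw [a6, a8] at a1
    rw [a7] at a5
    have a10 : 4 * (i : ℝ) / K + 2 * ((j : ℝ) - i) / K = (2 * (i : ℝ) + 2 * j) / K := by ring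
    show H j + 4 * (j : ℝ) / K - e j ≤ H i + 4 * (i : ℝ) / K - e i + e i +
      (A + 1) * (Cts.En K H J θ j - Cts.En K H J θ i) +
      ((∑ c ∈ range j, J c - ∑ c ∈ range i, J c) -
        (∑ c ∈ range i, J c - ∑ c ∈ range (2 * i - j), J c)) + C₀ / K
    linarith

end Vale.Agent.P106.R.H11
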