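import Vale.Agent.P106.R.H11.E7
import Vale.Agent.P106.R.H518.E12
import Vale.Agent.P106.R.SIG.Sig
import Vale.Agent.P106.R.E3.E3

/-!
# P106 / R / E7 : `e7 : E4 A → E7 A C₀` (helper11)
-/

set_option autoImplicit false

namespace Vale.Agent.P106.R.H11

open Vale.Agent.P106.R.E

/-- **E7 = (S)** from **E4 = (K)** -/
theorem e7 {A C₀ : ℝ} (hA : 0 ≤ A) (hC : 0 ≤ C₀) (h4 : E4 A) : E7 A C₀ :=
  e7_of hA hC h4 Vale.Agent.P106.R.E3.e3 (fun _ _ _ _ _ _ _ _ hK R => H518.cts hK R)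
    (fun F _ _ h1 h2 h3 h4 => SIG.sig_TN F h1 h2 h3 h4)
    (fun F _ _ h1 h2 h3 h4 => SIG.sig_xY F h1 h2 h3 h4)

end Vale.Agent.P106.R.H11
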